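import Vale.Agent.P160.Exposure

/-!
Numerical estimates for the two union bounds.
-/

namespace Vale.Agent.P160

open Classical Finset Filter Real

lemma rowBound_nonneg (k r : ℕ) : 0 ≤ rowBound k r := prod_nonneg fun _ _ => pLO_nonneg _

/-- Drop the first `s` factors. -/
lemma rowBound_le_pow (k r s a : ℕ) (hs : s ≤ r) (h : ∀ t, s ≤ t → a ≤ min (t + 1) k) :
    rowBound k r ≤ pLO a ^ (r - s) := by
  obtain ⟨d, rfl⟩ := Nat.exists_eq_add_of_le hs
  rw [rowBound, prod_range_add, Nat.add_sub_cancel_left]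
  refine (mul_le_of_le_one_left (prod_nonneg fun _ _ => pLO_nonneg _)
    (prod_le_one (fun _ _ => pLO_nonneg _) fun _ _ => pLO_le_one _)).trans ?_
  rw [← card_range d, ← prod_const, card_range]
  exact prod_le_prod (fun _ _ => pLO_nonneg _) fun t _ => pLO_antitone (h _ (by omega))

/-- Keep the first `q ≤ k` factors. -/
lemma rowBound_le_factorial (k r q : ℕ) (hq : q ≤ r) (hk : q ≤ k) :
    rowBound k r ≤ 1 / √(q.factorial : ℝ) := by
  obtain ⟨d, rfl⟩ := Nat.exists_eq_add_of_le hq
  rw [rowBound, prod_range_add]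
  refine (mul_le_of_le_one_right (prod_nonneg fun _ _ => pLO_nonneg _)
    (prod_le_one (fun _ _ => pLO_nonneg _) fun _ _ => pLO_le_one _)).trans ?_
  rw [← prod_range_add_one_eq_factorial]
  push_cast
  rw [Real.sqrt_prod (range q) (fun i _ => by positivity), one_div, ← prod_inv_distrib]
  refine prod_le_prod (fun _ _ => pLO_nonneg _) fun t ht => ?_
  rw [mem_range] at ht
  rw [show min (t + 1) k = t + 1 by omega]
  refine (pLO_le_rsqrt _).trans ?_
  rw [one_div]
  refine inv_anti₀ (by positivity) (Real.sqrt_le_sqrt ?_)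
  push_cast
  linarith

lemma choose_le_exp {n k : ℕ} (hk : 0 < k) (hn : 0 < n) :
    (n.choose k : ℝ) ≤ exp (k * (1 + log ((n : ℝ) / k))) := by
  have hk' : (0 : ℝ) < k := by exact_mod_cast hk
  have hn' : (0 : ℝ) < n := by exact_mod_cast hn
  refine (Nat.choose_le_pow_div k n).trans ?_
  have h := pow_div_factorial_le_exp (k : ℝ) (Nat.cast_nonneg k) k
  rw [mul_add, mul_one, exp_add, ← log_pow, exp_log (by positivity), div_pow]
  calc (n : ℝ) ^ k / k.factorial = (k : ℝ) ^ k / k.factorial * ((n : ℝ) ^ k / (k : ℝ) ^ k) := by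
        field_simp
    _ ≤ _ := mul_le_mul_of_nonneg_right h (by positivity)

lemma rsqrt_factorial_le_exp {m : ℕ} (hm : 0 < m) :
    1 / √(m.factorial : ℝ) ≤ exp ((m - m * log m) / 2) := by
  have h := pow_div_factorial_le_exp (m : ℝ) (Nat.cast_nonneg m) m
  have hm' : (0 : ℝ) < m := by exact_mod_cast hm
  rw [exp_half, exp_sub, ← log_pow, exp_log (by positivity), one_div, ← Real.sqrt_inv]
  refine Real.sqrt_le_sqrt ?_
  rw [le_div_iff₀ (by positivity), inv_mul_eq_div]
  exact h

/-- The union bound for supports of size `k`. -/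
noncomputable def suppTerm (n k : ℕ) : ℝ :=
  n.choose k * n.choose (k - 1) * rowBound k (n - (k - 1))

lemma suppTerm_small {n k : ℕ} (hn : 64 ≤ n) (hk3 : 3 ≤ k) (hk : k * 64 ≤ n) :
    2 ^ n * suppTerm n k ≤ 1 := by
  have hkn : k ≤ n := by omega
  have hk' : (3 : ℝ) ≤ k := by exact_mod_cast hk3
  have hk64 : (k : ℝ) * 64 ≤ n := by exact_mod_cast hk
  have hn' : (64 : ℝ) ≤ n := by exact_mod_cast hn
  have hc : (n.choose (k - 1) : ℝ) ≤ k * n.choose k := by
    have h := Nat.choose_succ_right_eq n (k - 1)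
    rw [Nat.sub_add_cancel (by omega : 1 ≤ k)] at h
    have : n.choose (k - 1) ≤ k * n.choose k := by
      rw [mul_comm, h]
      exact Nat.le_mul_of_pos_right _ (by omega)
    exact_mod_cast this
  have hr : rowBound k (n - (k - 1)) ≤ (3 / 8 : ℝ) ^ (n - k - 1) := by
    rw [← pLO_three, show n - k - 1 = n - (k - 1) - 2 by omega]
    exact rowBound_le_pow _ _ _ _ (by omega) fun t ht => by omega
  have hC := choose_le_exp (by omega : 0 < k) (by omega : 0 < n)
  set A := exp ((k : ℝ) * (1 + log ((n : ℝ) / k))) with hA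
  have hkexp : (k : ℝ) ≤ exp k := (le_add_of_nonneg_right zero_le_one).trans (add_one_le_exp _)
  calc 2 ^ n * suppTerm n k ≤ 2 ^ n * (A * (exp k * A) * (3 / 8 : ℝ) ^ (n - k - 1)) := by
        refine mul_le_mul_of_nonneg_left ?_ (by positivity)
        exact mul_le_mul (mul_le_mul hC (hc.trans (mul_le_mul hkexp hC (by positivity)
          (by positivity))) (by positivity) (by positivity)) hr (rowBound_nonneg _ _)
          (by positivity)
    _ = exp (n * log 2 + (2 * (k * (1 + log ((n : ℝ) / k))) + k) -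
          ((n : ℝ) - k - 1) * log (8 / 3)) := by
        have e1 : (n : ℝ) - k - 1 = ((n - k - 1 : ℕ) : ℝ) := by
          rw [Nat.cast_sub (by omega), Nat.cast_sub hkn, Nat.cast_one]
        rw [e1, exp_sub, exp_add, exp_add, ← log_pow, ← log_pow, exp_log (by positivity),
          exp_log (by positivity), two_mul (_ * _), exp_add, div_eq_mul_inv (_ * _), ← inv_pow]
        norm_num
        ring
    _ ≤ 1 := by
        rw [exp_le_one_iff]
        have h64 : log (64 : ℝ) = 6 * log 2 := by
          rw [show (64 : ℝ) = 2 ^ 6 by norm_num, log_pow]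
          norm_num
        have hL : log ((n : ℝ) / k) ≤ 6 * log 2 + (n / (64 * k) - 1) := by
          rw [← h64, show (n : ℝ) / k = 64 * (n / (64 * k)) by field_simp,
            log_mul (by norm_num) (by positivity)]
          have := log_le_sub_one_of_pos (show (0 : ℝ) < n / (64 * k) by positivity)
          linarith
        have hkL : (k : ℝ) * (1 + log ((n : ℝ) / k)) ≤ k * (6 * log 2) + n / 64 := by
          refine (mul_le_mul_of_nonneg_left (add_le_add le_rfl hL) (by positivity)).trans
            (le_of_eq ?_)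
          field_simp
          ring
        have h43 : (1 / 4 : ℝ) ≤ log (8 / 3) - log 2 := by
          rw [← log_div (by norm_num) (by norm_num)]
          have := one_sub_inv_le_log_of_pos (show (0 : ℝ) < 8 / 3 / 2 by norm_num)
          norm_num at this ⊢
          exact this
        have h83 : log (8 / 3 : ℝ) ≤ 5 / 3 := by
          have := log_le_sub_one_of_pos (show (0 : ℝ) < 8 / 3 by norm_num)
          linarith
        have hl2 := log_two_lt_d9
        nlinarith

lemma suppTerm_mid {n k : ℕ} (hn : 128 * 8 ^ 14 ≤ n) (hk : n < k * 64) (hk2 : k * 2 ≤ n) :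
    2 ^ n * suppTerm n k ≤ 1 := by
  have hbig : 128 ≤ n := le_trans (by norm_num) hn
  set q := n / 4 with hq
  set s := n / 128 with hs
  have hn' : (128 : ℝ) * 8 ^ 14 ≤ n := by exact_mod_cast hn
  have hnpos : (0 : ℝ) < n := by exact_mod_cast (show 0 < n by omega)
  have hC : ∀ j, (n.choose j : ℝ) ≤ 2 ^ n := fun j => by exact_mod_cast Nat.choose_le_two_pow n j
  have h0 : 0 ≤ suppTerm n k := mul_nonneg (by positivity) (rowBound_nonneg _ _)
  have hT : 2 ^ n * suppTerm n k ≤ (8 : ℝ) ^ n * rowBound k (n - (k - 1)) := by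
    calc 2 ^ n * suppTerm n k ≤ 2 ^ n * (2 ^ n * 2 ^ n * rowBound k (n - (k - 1))) :=
          mul_le_mul_of_nonneg_left (mul_le_mul_of_nonneg_right
            (mul_le_mul (hC _) (hC _) (by positivity) (by positivity)) (rowBound_nonneg _ _))
            (by positivity)
      _ = _ := by
        rw [show (8 : ℝ) = 2 * (2 * 2) by norm_num, mul_pow, mul_pow]
        ring
  have hb := rowBound_le_pow k (n - (k - 1)) s s (by omega) fun t ht => by omega
  have hps : pLO s ^ 2 ≤ 128 / (n : ℝ) := by
    have h := pLO_sq s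
    rw [le_div_iff₀ hnpos]
    have h1 : (n : ℝ) ≤ 128 * ((s : ℝ) + 1) := by exact_mod_cast (show n ≤ 128 * (s + 1) by omega)
    nlinarith [sq_nonneg (pLO s)]
  have hsq : (2 ^ n * suppTerm n k) ^ 2 ≤ 1 := by
    calc (2 ^ n * suppTerm n k) ^ 2 ≤ ((8 : ℝ) ^ n * pLO s ^ (n - (k - 1) - s)) ^ 2 :=
          pow_le_pow_left₀ (by positivity)
            (hT.trans (mul_le_mul_of_nonneg_left hb (by positivity))) 2
      _ ≤ ((8 : ℝ) ^ n * pLO s ^ q) ^ 2 := by
          refine pow_le_pow_left₀ (mul_nonneg (by positivity) (pow_nonneg (pLO_nonneg _) _)) ?_ 2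
          refine mul_le_mul_of_nonneg_left ?_ (by positivity)
          exact pow_le_pow_of_le_one (pLO_nonneg _) (pLO_le_one _) (by omega)
      _ = (8 : ℝ) ^ (2 * n) * (pLO s ^ 2) ^ q := by ring
      _ ≤ (8 : ℝ) ^ (14 * q) * (128 / (n : ℝ)) ^ q :=
          mul_le_mul (pow_le_pow_right₀ (by norm_num) (by omega))
            (pow_le_pow_left₀ (sq_nonneg _) hps q) (pow_nonneg (sq_nonneg _) _) (by positivity)
      _ ≤ 1 := by
          rw [pow_mul, ← mul_pow]
          refine pow_le_one₀ (by positivity) ?_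
          rw [mul_div_assoc', div_le_one hnpos]
          linarith
  nlinarith [mul_nonneg (show (0 : ℝ) ≤ 2 ^ n by positivity) h0]

lemma suppTerm_large {n k : ℕ} (hk : n < k * 2) (hkn : (k : ℝ) ≤ n - 2 * n / log n)
    (hL : 1 ≤ log (n : ℝ)) (hLL : log (log (n : ℝ)) ≤ log n / 50) (h50 : 50 ≤ log (n : ℝ))
    (hlog : log (n : ℝ) ≤ n / 10) :
    2 ^ n * suppTerm n k ≤ 1 := by
  have hn0 : 0 < n := by
    rcases Nat.eq_zero_or_pos n with rfl | h
    · simp at hL
      norm_num at hL
    · exact h
  have hn' : (0 : ℝ) < n := by exact_mod_cast hn0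
  have hq : 0 < 2 * (n : ℝ) / log n := by positivity
  have hkn' : k < n := by
    have : (k : ℝ) < n := by linarith
    exact_mod_cast this
  set m := n - k with hm
  have hm0 : 0 < m := by omega
  have hmR : (m : ℝ) = n - k := by rw [hm, Nat.cast_sub hkn'.le]
  have hm' : (0 : ℝ) < m := by exact_mod_cast hm0
  have hmq : 2 * (n : ℝ) / log n ≤ m := by linarith
  have hc : (n.choose (k - 1) : ℝ) ≤ n * n.choose m := by
    have h := Nat.choose_succ_right_eq n m
    have e : n.choose (k - 1) = n.choose (m + 1) := by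
      rw [← Nat.choose_symm (show k - 1 ≤ n by omega), show n - (k - 1) = m + 1 by omega]
    have : n.choose (k - 1) ≤ n * n.choose m := by
      rw [e]
      calc n.choose (m + 1) ≤ n.choose (m + 1) * (m + 1) := Nat.le_mul_of_pos_right _ (by omega)
        _ = n.choose m * (n - m) := h
        _ ≤ _ := by rw [mul_comm]; exact Nat.mul_le_mul_right _ (Nat.sub_le _ _)
    exact_mod_cast this
  have hr : rowBound k (n - (k - 1)) ≤ exp ((m - m * log m) / 2) :=
    (rowBound_le_factorial k _ m (by omega) (by omega)).trans (rsqrt_factorial_le_exp hm0)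
  have hC := choose_le_exp hm0 hn0
  set A := exp ((m : ℝ) * (1 + log ((n : ℝ) / m))) with hA
  have hCk : (n.choose k : ℝ) ≤ A := by
    rw [← Nat.choose_symm hkn'.le]
    exact hC
  calc 2 ^ n * suppTerm n k ≤ 2 ^ n * (A * (n * A) * exp ((m - m * log m) / 2)) := by
        refine mul_le_mul_of_nonneg_left ?_ (by positivity)
        exact mul_le_mul (mul_le_mul hCk (hc.trans (mul_le_mul_of_nonneg_left hC hn'.le))
          (by positivity) (by positivity)) hr (rowBound_nonneg _ _) (by positivity)
    _ = exp (n * log 2 + log n + 2 * (m * (1 + log ((n : ℝ) / m))) + (m - m * log m) / 2) := by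
        rw [exp_add, exp_add, exp_add, ← log_pow 2 n, exp_log (by positivity), exp_log hn',
          two_mul (_ * _), exp_add]
        ring
    _ ≤ 1 := by
        rw [exp_le_one_iff]
        have hu : log ((n : ℝ) / m) ≤ log (log (n : ℝ)) := by
          refine log_le_log (by positivity) ?_
          rw [div_le_iff₀ hm']
          rw [div_le_iff₀ (by linarith)] at hmq
          nlinarith
        have hlm : log (m : ℝ) = log n - log ((n : ℝ) / m) := by
          rw [log_div hn'.ne' hm'.ne']
          ring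
        rw [hlm]
        have hmL : 2 * (n : ℝ) ≤ m * log n := by
          rw [div_le_iff₀ (by linarith)] at hmq
          linarith
        have hcoef : (m : ℝ) * (5 / 2 + 5 / 2 * log ((n : ℝ) / m)) ≤ m * (log n / 10) :=
          mul_le_mul_of_nonneg_left (by linarith) hm'.le
        have := log_two_lt_d9
        nlinarith

lemma intTerm_le {ε : ℝ} (hε : 0 < ε) {n k : ℕ} (hkn : k ≤ n)
    (hk : (n : ℝ) - 2 * n / log n ≤ k) (h4 : 4 ≤ ε * log (n : ℝ)) (hL : 4 ≤ log (n : ℝ)) :
    2 ^ n * ((3 * (n : ℝ) ^ (1 / 2 - ε : ℝ)) ^ n * rowBound k n) ≤ 1 := by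
  have hn0 : 0 < n := by
    rcases Nat.eq_zero_or_pos n with rfl | h
    · simp at hL
      norm_num at hL
    · exact h
  have hn' : (0 : ℝ) < n := by exact_mod_cast hn0
  have hLpos : (0 : ℝ) < log n := by linarith
  have hhalf : 2 * (n : ℝ) / log n ≤ n / 2 := by
    rw [div_le_iff₀ hLpos]
    nlinarith
  have hk' : (n : ℝ) / 2 ≤ k := by linarith
  have hk0 : 0 < k := by exact_mod_cast (show (0 : ℝ) < k by linarith)
  have hr : rowBound k n ≤ exp ((k - k * log k) / 2) :=
    (rowBound_le_factorial k n k hkn le_rfl).trans (rsqrt_factorial_le_exp hk0)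
  calc 2 ^ n * ((3 * (n : ℝ) ^ (1 / 2 - ε : ℝ)) ^ n * rowBound k n)
      ≤ 2 ^ n * ((3 * (n : ℝ) ^ (1 / 2 - ε : ℝ)) ^ n * exp ((k - k * log k) / 2)) :=
        mul_le_mul_of_nonneg_left (mul_le_mul_of_nonneg_left hr (by positivity)) (by positivity)
    _ = exp (n * log 2 + n * (log 3 + (1 / 2 - ε) * log n) + (k - k * log k) / 2) := by
        rw [exp_add, exp_add, ← log_pow 2 n, exp_log (by positivity)]
        rw [show log 3 + (1 / 2 - ε) * log (n : ℝ) = log (3 * (n : ℝ) ^ (1 / 2 - ε : ℝ)) by
          rw [log_mul (by norm_num) (by positivity), log_rpow hn'],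
          ← log_pow (3 * (n : ℝ) ^ (1 / 2 - ε : ℝ)) n, exp_log (by positivity)]
        ring
    _ ≤ 1 := by
        rw [exp_le_one_iff]
        have hlk : log (n : ℝ) - log 2 ≤ log k := by
          rw [← log_div hn'.ne' two_ne_zero]
          exact log_le_log (by positivity) hk'
        have hkL : (n : ℝ) * log n - 2 * n ≤ k * log n := by
          refine le_trans (le_of_eq ?_) (mul_le_mul_of_nonneg_right hk hLpos.le)
          field_simp
        have hk2 : (k : ℝ) ≤ n := by exact_mod_cast hkn
        have h3 : log (3 : ℝ) ≤ 2 * log 2 := by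
          rw [← log_rpow two_pos]
          exact log_le_log (by norm_num) (by norm_num)
        have := log_two_lt_d9
        have := log_two_gt_d9
        nlinarith

/-- For large `n` every union bound term is below `2 ^ (-n)`. -/
lemma eventually_suppTerm_le : ∀ᶠ n : ℕ in atTop, ∀ k : ℕ, 3 ≤ k →
    (k : ℝ) ≤ n - 2 * n / log n → 2 ^ n * suppTerm n k ≤ 1 := by
  have hlogtop : Tendsto (fun n : ℕ => log (n : ℝ)) atTop atTop :=
    tendsto_log_atTop.comp tendsto_natCast_atTop_atTop
  have h1 : ∀ᶠ x : ℝ in atTop, log x ≤ x / 50 := by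
    have := isLittleO_log_id_atTop.bound (show (0 : ℝ) < 1 / 50 by norm_num)
    filter_upwards [this, eventually_ge_atTop 1] with x hx hx1
    rw [Real.norm_eq_abs, Real.norm_eq_abs, id_eq, abs_of_nonneg (log_nonneg hx1),
      abs_of_nonneg (zero_le_one.trans hx1)] at hx
    linarith
  filter_upwards [eventually_ge_atTop (128 * 8 ^ 14), hlogtop.eventually h1,
    hlogtop.eventually_ge_atTop 50, tendsto_natCast_atTop_atTop.eventually h1]
    with n hn hLL h50 hlog k hk3 hkn
  rcases le_or_gt (k * 64) n with h | h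
  · exact suppTerm_small (le_trans (by norm_num) hn) hk3 h
  rcases le_or_gt (k * 2) n with h2 | h2
  · exact suppTerm_mid hn h h2
  · refine suppTerm_large h2 hkn (by linarith) hLL h50 (hlog.trans ?_)
    have : (0 : ℝ) ≤ n := Nat.cast_nonneg n
    linarith

end Vale.Agent.P160
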