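import Mathlib

/-!
Symmetric random sign matrices: the sample space and the events used in the statement.
-/

namespace Vale.Agent.P160

open Classical Finset Matrix

/-- The sign of a bit. -/
def sgn (b : Bool) : ℝ := if b then 1 else -1

/-- One bit for each unordered pair, diagonal pairs included. -/
abbrev Samp (n : ℕ) : Type := Sym2 (Fin n) → Bool

/-- The symmetric sign matrix of a sample. -/
def signMat {n : ℕ} (ω : Samp n) : Matrix (Fin n) (Fin n) ℝ :=
  Matrix.of fun i j => sgn (ω s(i, j))

/-- Probability for the uniform measure on samples. -/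
noncomputable def prob {n : ℕ} (P : Samp n → Prop) : ℝ :=
  (#(univ.filter P) : ℝ) / 2 ^ Fintype.card (Sym2 (Fin n))

/-- The matrix kills a vector that has at most `n - 2n / log n` nonzero coordinates, or that has
integer coordinates of absolute value at most `n ^ (1/2 - ε)`. -/
def Structured (ε : ℝ) {n : ℕ} (ω : Samp n) : Prop :=
  ∃ x : Fin n → ℝ, x ≠ 0 ∧ signMat ω *ᵥ x = 0 ∧
    ((#(univ.filter fun i => x i ≠ 0) : ℝ) ≤ n - 2 * n / Real.log n ∨
      ∃ z : Fin n → ℤ, ∀ i, x i = z i ∧ |(z i : ℝ)| ≤ (n : ℝ) ^ (1 / 2 - ε : ℝ))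

end Vale.Agent.P160
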