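import Vale.Agent.P160.Prob

/-!
Exposing the rows one by one, and the bound for kernel vectors with a given support.
-/

namespace Vale.Agent.P160

open Classical Finset Matrix

variable {n : ℕ}

lemma sym2_cast_inj {i j j' : Fin n} (h : s(i, j) = s(i, j')) : j = j' := by
  rcases Sym2.eq_iff.1 h with ⟨-, h⟩ | ⟨h1, h2⟩
  · exact h
  · exact h2.trans h1

/-- The vector `x` solves the equation of row `i`. -/
def RowZero (x : Fin n → ℝ) (ω : Samp n) (i : Fin n) : Prop :=
  ∑ j, sgn (ω s(i, j)) * x j = 0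

lemma rowZero_of_mulVec {x : Fin n → ℝ} {ω : Samp n} (h : signMat ω *ᵥ x = 0) (i : Fin n) :
    RowZero x ω i := congrFun h i

/-- One row with fresh entries in the columns `J`. -/
lemma prob_row_le (i : Fin n) (J : Finset (Fin n)) (P : Samp n → Prop)
    (x : Samp n → Fin n → ℝ)
    (hP : ∀ ω η, P (upd (J.image fun j => s(i, j)) ω η) ↔ P ω)
    (hx : ∀ ω η, x (upd (J.image fun j => s(i, j)) ω η) = x ω)
    (hne : ∀ ω, P ω → ∀ j ∈ J, x ω j ≠ 0) :
    prob (fun ω => P ω ∧ RowZero (x ω) ω i) ≤ pLO #J * prob P := by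
  set F := J.image fun j => s(i, j)
  refine prob_and_le F P _ _ hP fun ω hω => ?_
  have hmem : ∀ j ∈ J, s(i, j) ∈ F := fun j hj => mem_image_of_mem _ hj
  let e : J → F := fun j => ⟨s(i, j.1), hmem j.1 j.2⟩
  have he : Function.Bijective e :=
    ⟨fun j j' h => Subtype.ext (sym2_cast_inj (congrArg Subtype.val h)), fun ⟨f, hf⟩ => by
      obtain ⟨j, hj, rfl⟩ := mem_image.1 hf
      exact ⟨⟨j, hj⟩, rfl⟩⟩
  have hF : #F = #J := card_image_of_injective _ fun _ _ => sym2_cast_inj
  have hle : #(univ.filter fun η : F → Bool => RowZero (x (upd F ω η)) (upd F ω η) i) ≤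
      (Fintype.card J).choose (Fintype.card J / 2) := by
    refine le_trans (card_le_card_of_injOn (fun η => η ∘ e) ?_ ?_)
      (card_sum_sgn_le (fun j : J => x ω j.1) (fun j => hne ω hω j.1 j.2)
        (-∑ j ∈ univ \ J, sgn (ω s(i, j)) * x ω j))
    · intro η hη
      simp only [coe_filter, mem_univ, true_and, Set.mem_ofPred_eq] at hη ⊢
      rw [RowZero, hx, ← sum_sdiff (subset_univ J), ← sum_coe_sort J] at hη
      have h1 : ∑ j ∈ univ \ J, sgn (upd F ω η s(i, j)) * x ω j =
          ∑ j ∈ univ \ J, sgn (ω s(i, j)) * x ω j := sum_congr rfl fun j hj => by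
        rw [upd_of_notMem]
        intro hm
        obtain ⟨j', hj', h⟩ := mem_image.1 hm
        exact (mem_sdiff.1 hj).2 (sym2_cast_inj h ▸ hj')
      have h2 : ∀ j : J, sgn (upd F ω η s(i, j.1)) * x ω j = sgn ((η ∘ e) j) * x ω j :=
        fun j => by rw [upd_of_mem (hmem j.1 j.2)]; rfl
      rw [h1, sum_congr rfl fun j _ => h2 j] at hη
      linarith
    · intro η _ η' _ h
      funext f
      obtain ⟨j, rfl⟩ := he.2 f
      exact congrFun h j
  rw [Fintype.card_coe] at hle
  rw [pLO, hF, div_mul_cancel₀ _ (by positivity)]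
  exact_mod_cast hle

/-- The bound on the failure of `r` exposed rows for support size `k`. -/
noncomputable def rowBound (k r : ℕ) : ℝ := ∏ t ∈ range r, pLO (min (t + 1) k)

/-- All rows outside `R` kill a full vector on `S` found from the entries in `R × S`. -/
lemma prob_rows_le (S R : Finset (Fin n)) (P : Samp n → Prop) (x : Samp n → Fin n → ℝ)
    (hdep : ∀ ω ω' : Samp n, (∀ r ∈ R, ∀ j ∈ S, ω s(r, j) = ω' s(r, j)) →
      (P ω ↔ P ω') ∧ x ω = x ω')
    (hsupp : ∀ ω, P ω → ∀ j, x ω j ≠ 0 ↔ j ∈ S) :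
    prob (fun ω => P ω ∧ ∀ i ∉ R, RowZero (x ω) ω i) ≤ rowBound #S (n - #R) := by
  have hinv : ∀ (i : Fin n) (J : Finset (Fin n)), (∀ j ∈ J, j ∈ S ∧ (i ∈ S → j ∉ R)) → i ∉ R →
      ∀ ω η, (P (upd (J.image fun j => s(i, j)) ω η) ↔ P ω) ∧
        x (upd (J.image fun j => s(i, j)) ω η) = x ω := by
    intro i J hJ hi ω η
    refine hdep _ _ fun r hr j hj => upd_of_notMem fun hm => ?_
    obtain ⟨j', hj', h⟩ := mem_image.1 hm
    rcases Sym2.eq_iff.1 h with ⟨rfl, -⟩ | ⟨rfl, rfl⟩
    · exact hi hr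
    · exact (hJ _ hj').2 hj hr
  have hstep : ∀ (T : Finset (Fin n)) (i : Fin n) (J : Finset (Fin n)), i ∉ T → i ∉ R →
      (∀ j ∈ J, j ∈ S ∧ (i ∈ S → j ∉ R ∧ j ∉ T)) →
      prob (fun ω => P ω ∧ ∀ r ∈ insert i T, RowZero (x ω) ω r) ≤
        pLO #J * prob (fun ω => P ω ∧ ∀ r ∈ T, RowZero (x ω) ω r) := by
    intro T i J hiT hiR hJ
    have h0 := fun ω η => hinv i J (fun j hj => ⟨(hJ j hj).1, fun h => ((hJ j hj).2 h).1⟩) hiR ω η
    refine (prob_mono fun ω hω => ?_).trans (prob_row_le i J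
      (fun ω => P ω ∧ ∀ r ∈ T, RowZero (x ω) ω r) x (fun ω η => ?_) (fun ω η => (h0 ω η).2)
      fun ω hω j hj => (hsupp ω hω.1 j).2 (hJ j hj).1)
    · exact ⟨⟨hω.1, fun r hr => hω.2 r (mem_insert_of_mem hr)⟩, hω.2 i (mem_insert_self _ _)⟩
    · rw [(h0 ω η).1]
      refine and_congr_right fun hPω => forall₂_congr fun r hr => ?_
      rw [(h0 ω η).2, RowZero, RowZero]
      refine Eq.congr_left (sum_congr rfl fun j _ => ?_)
      by_cases hxj : x ω j = 0
      · rw [hxj, mul_zero, mul_zero]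
      rw [upd_of_notMem]
      intro hm
      obtain ⟨j', hj', h⟩ := mem_image.1 hm
      rcases Sym2.eq_iff.1 h with ⟨rfl, -⟩ | ⟨rfl, rfl⟩
      · exact hiT hr
      · exact ((hJ _ hj').2 ((hsupp ω hPω _).1 hxj)).2 hr
  -- rows outside the support
  have hout : ∀ T ⊆ (univ \ R) \ S,
      prob (fun ω => P ω ∧ ∀ r ∈ T, RowZero (x ω) ω r) ≤ pLO #S ^ #T := by
    intro T
    induction T using Finset.induction with
    | empty => intro _; simpa using prob_le_one _
    | insert i T hiT ih =>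
      intro hT
      have hi := hT (mem_insert_self i T)
      simp only [mem_sdiff, mem_univ, true_and] at hi
      rw [card_insert_of_notMem hiT, pow_succ']
      exact (hstep T i S hiT hi.1 fun j hj => ⟨hj, fun h => absurd h hi.2⟩).trans
        (mul_le_mul_of_nonneg_left (ih fun a ha => hT (mem_insert_of_mem ha)) (pLO_nonneg _))
  -- rows inside the support
  set T1 := (univ \ R) \ S with hT1
  have hin : ∀ T ⊆ S \ R, prob (fun ω => P ω ∧ ∀ r ∈ T1 ∪ T, RowZero (x ω) ω r) ≤
      pLO #S ^ #T1 * ∏ t ∈ range #T, pLO (#(S \ R) - t) := by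
    intro T
    induction T using Finset.induction with
    | empty => intro _; simpa using hout T1 subset_rfl
    | insert i T hiT ih =>
      intro hT
      have hi := hT (mem_insert_self i T)
      have hTS : T ⊆ S \ R := fun a ha => hT (mem_insert_of_mem ha)
      have hiT1 : i ∉ T1 := fun h => (mem_sdiff.1 h).2 (mem_sdiff.1 hi).1
      rw [union_insert, card_insert_of_notMem hiT, prod_range_succ, ← mul_assoc]
      refine (hstep (T1 ∪ T) i ((S \ R) \ T) (by simp [hiT, hiT1]) (mem_sdiff.1 hi).2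
        fun j hj => ?_).trans ?_
      · simp only [mem_sdiff] at hj
        exact ⟨hj.1.1, fun _ => ⟨hj.1.2, by simp [hT1, hj.1.1, hj.2]⟩⟩
      · rw [card_sdiff_of_subset hTS, mul_comm]
        exact mul_le_mul_of_nonneg_right (ih hTS) (pLO_nonneg _)
  have hb := hin (S \ R) subset_rfl
  have hun : T1 ∪ (S \ R) = univ \ R := by ext a; simp [hT1]; tauto
  rw [hun, ← prod_range_reflect] at hb
  refine ((prob_mono fun ω hω => ⟨hω.1, fun r hr => hω.2 r (mem_sdiff.1 hr).2⟩).trans hb).trans ?_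
  have hcard : n - #R = #(S \ R) + #T1 := by
    have h := card_union_of_disjoint (s := T1) (t := S \ R) (by
      rw [disjoint_left]; intro a h1 h2
      exact (mem_sdiff.1 h1).2 (mem_sdiff.1 h2).1)
    rw [hun, card_sdiff_of_subset (subset_univ _), card_univ, Fintype.card_fin] at h
    omega
  have hbk : #(S \ R) ≤ #S := card_le_card sdiff_subset
  rw [rowBound, hcard, prod_range_add, mul_comm]
  refine mul_le_mul (le_of_eq (prod_congr rfl fun t ht => ?_)) ?_
    (pow_nonneg (pLO_nonneg _) _) (prod_nonneg fun t _ => pLO_nonneg _)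
  · rw [mem_range] at ht
    congr 1
    omega
  · rw [← card_range #T1, ← prod_const, card_range]
    exact prod_le_prod (fun t _ => pLO_nonneg _) fun t _ => pLO_antitone (min_le_right _ _)

/-- A kernel vector with support exactly `S` that its rows in `R` already determine. -/
def DetEvent (S R : Finset (Fin n)) (ω : Samp n) : Prop :=
  ∃ x : Fin n → ℝ, (∀ j, x j ≠ 0 ↔ j ∈ S) ∧ (∀ i, RowZero x ω i) ∧
    ∀ y : Fin n → ℝ, (∀ j, y j ≠ 0 → j ∈ S) → (∀ r ∈ R, RowZero y ω r) → ∃ c : ℝ, y = c • x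

/-- A candidate kernel vector read off from the rows in `R`. -/
def Cand (S R : Finset (Fin n)) (ω : Samp n) (y : Fin n → ℝ) : Prop :=
  (∀ j, y j ≠ 0 ↔ j ∈ S) ∧ ∀ r ∈ R, RowZero y ω r

lemma prob_detEvent_le (S R : Finset (Fin n)) :
    prob (DetEvent S R) ≤ rowBound #S (n - #R) := by
  let pick : Set (Fin n → ℝ) → Fin n → ℝ := fun A => if h : A.Nonempty then h.some else 0
  have hcand : ∀ ω ω' : Samp n, (∀ r ∈ R, ∀ j ∈ S, ω s(r, j) = ω' s(r, j)) →
      {y | Cand S R ω y} = {y | Cand S R ω' y} := by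
    intro ω ω' h
    ext y
    refine and_congr_right fun hy => forall₂_congr fun r hr => ?_
    refine Eq.congr_left (sum_congr rfl fun j _ => ?_)
    by_cases hj : y j = 0
    · rw [hj, mul_zero, mul_zero]
    · rw [h r hr j ((hy j).1 hj)]
  refine (prob_mono fun ω hω => ?_).trans (prob_rows_le S R
    (fun ω => {y | Cand S R ω y}.Nonempty) (fun ω => pick {y | Cand S R ω y})
    (fun ω ω' h => by simp only [hcand ω ω' h, and_self]) fun ω hω j => ?_)
  · obtain ⟨x, hxs, hx0, hu⟩ := hω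
    have hne : {y | Cand S R ω y}.Nonempty := ⟨x, hxs, fun r _ => hx0 r⟩
    refine ⟨hne, fun i _ => ?_⟩
    obtain ⟨hy1, hy2⟩ : Cand S R ω (pick {y | Cand S R ω y}) := by
      simp only [pick, dif_pos hne]
      exact hne.some_mem
    obtain ⟨c, hc⟩ := hu _ (fun j hj => (hy1 j).1 hj) hy2
    show RowZero (pick {y | Cand S R ω y}) ω i
    rw [hc, RowZero]
    simp only [Pi.smul_apply, smul_eq_mul, mul_left_comm _ c, ← mul_sum]
    rw [hx0 i, mul_zero]
  · have h : Cand S R ω (pick {y | Cand S R ω y}) := by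
      simp only [pick, dif_pos hω]
      exact hω.some_mem
    exact h.1 j

/-- A kernel vector of least support is determined by `#supp - 1` rows. -/
lemma exists_detEvent {ω : Samp n} {x : Fin n → ℝ} (hx : x ≠ 0) (h0 : ∀ i, RowZero x ω i)
    (hmin : ∀ y : Fin n → ℝ, y ≠ 0 → (∀ i, RowZero y ω i) →
      #(univ.filter fun j => x j ≠ 0) ≤ #(univ.filter fun j => y j ≠ 0)) :
    ∃ R : Finset (Fin n), #R + 1 = #(univ.filter fun j => x j ≠ 0) ∧
      DetEvent (univ.filter fun j => x j ≠ 0) R ω := by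
  set S := univ.filter fun j => x j ≠ 0 with hS
  have hmem : ∀ j, x j ≠ 0 ↔ j ∈ S := fun j => by simp [hS]
  obtain ⟨j0, hj0⟩ : ∃ j, x j ≠ 0 := Function.ne_iff.1 hx
  have hj0S := (hmem j0).1 hj0
  -- the rows restricted to the support
  let v : Fin n → (S → ℝ) := fun i j => sgn (ω s(i, j.1))
  let x' : S → ℝ := fun j => x j.1
  let φ : (S → ℝ) →ₗ[ℝ] ℝ := ∑ j, x' j • LinearMap.proj j
  have hφv : ∀ i, φ (v i) = 0 := by
    intro i
    have h1 : φ (v i) = ∑ j : S, sgn (ω s(i, j.1)) * x j.1 := by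
      simp [φ, v, x', mul_comm]
    rw [h1, sum_coe_sort S fun j => sgn (ω s(i, j)) * x j, ← h0 i]
    exact sum_subset (subset_univ _) fun j _ hj => by
      rw [not_not.1 (mt (hmem j).1 hj), mul_zero]
  have hφne : φ (Pi.single ⟨j0, hj0S⟩ 1) ≠ 0 := by
    have : φ (Pi.single ⟨j0, hj0S⟩ 1) = x j0 := by
      simp [φ, x', Pi.single_apply]
    rw [this]
    exact hj0
  have hW : Submodule.span ℝ (Set.range v) ≤ LinearMap.ker φ :=
    Submodule.span_le.2 (Set.range_subset_iff.2 fun i => hφv i)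
  have hker : LinearMap.ker φ < ⊤ :=
    lt_top_iff_ne_top.2 fun h => hφne (LinearMap.mem_ker.1 (h ▸ Submodule.mem_top))
  have hfin : Module.finrank ℝ (Submodule.span ℝ (Set.range v)) < #S := by
    refine (Submodule.finrank_mono hW).trans_lt ?_
    have := Submodule.finrank_lt hker.ne
    rwa [Module.finrank_pi, Fintype.card_coe] at this
  obtain ⟨κ, a, ha, hspan, hli⟩ := exists_linearIndependent' ℝ v
  have : Fintype κ := Fintype.ofInjective a ha
  have hcard : Fintype.card κ + 1 ≤ #S := by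
    have h2 := finrank_span_eq_card hli
    rw [hspan] at h2
    omega
  obtain ⟨R, hR, hRcard⟩ := exists_superset_card_eq (s := univ.image a) (n := #S - 1) (by
    rw [card_image_of_injective _ ha, card_univ]; omega) (by
    have := card_le_univ S
    simp at this ⊢
    omega)
  refine ⟨R, by omega, x, hmem, h0, fun y hy hyR => ⟨y j0 / x j0, ?_⟩⟩
  -- `y` is killed by every row
  have hy0 : ∀ i, RowZero y ω i := by
    intro i
    let ψ : (S → ℝ) →ₗ[ℝ] ℝ := ∑ j, y j.1 • LinearMap.proj j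
    have hψ : ∀ i, ψ (v i) = ∑ j, sgn (ω s(i, j)) * y j := fun i => by
      have h1 : ψ (v i) = ∑ j : S, sgn (ω s(i, j.1)) * y j.1 := by
        simp [ψ, v, mul_comm]
      rw [h1, sum_coe_sort S fun j => sgn (ω s(i, j)) * y j]
      exact sum_subset (subset_univ _) fun j _ hj => by
        rw [not_not.1 (mt (hy j) hj), mul_zero]
    have hle : Submodule.span ℝ (Set.range v) ≤ LinearMap.ker ψ := by
      rw [← hspan]
      refine Submodule.span_le.2 (Set.range_subset_iff.2 fun k => ?_)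
      show ψ (v (a k)) = 0
      rw [hψ]
      exact hyR _ (hR (mem_image_of_mem _ (mem_univ k)))
    have := hle (Submodule.subset_span ⟨i, rfl⟩)
    rw [LinearMap.mem_ker, hψ] at this
    exact this
  by_contra hne
  set c := y j0 / x j0
  have hz0 : ∀ i, RowZero (y - c • x) ω i := fun i => by
    simp only [RowZero, Pi.sub_apply, Pi.smul_apply, smul_eq_mul, mul_sub, sum_sub_distrib,
      mul_left_comm _ c, ← mul_sum]
    rw [hy0 i, h0 i, mul_zero, sub_zero]
  have hlt := hmin (y - c • x) (sub_ne_zero.2 hne) hz0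
  have hsub : (univ.filter fun j => (y - c • x) j ≠ 0) ⊆ S.erase j0 := by
    intro j hj
    simp only [mem_filter, mem_univ, true_and, Pi.sub_apply, Pi.smul_apply, smul_eq_mul] at hj
    refine mem_erase.2 ⟨fun h => hj ?_, ?_⟩
    · rw [h, div_mul_cancel₀ _ hj0, sub_self]
    · by_contra hjS
      rw [not_not.1 (mt (hy j) hjS), not_not.1 (mt (hmem j).1 hjS)] at hj
      simp at hj
  have := card_le_card hsub
  rw [card_erase_of_mem hj0S] at this
  have := card_pos.2 ⟨j0, hj0S⟩
  omega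

end Vale.Agent.P160
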