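import Vale.Agent.P160.Pairs
import Vale.Agent.P160.Bounds

/-!
The asymptotic probability of a structured kernel vector.
-/

namespace Vale.Agent.P160

open Classical Finset Matrix Filter Topology

variable {n : ℕ}

lemma sgn_ne_zero (b : Bool) : sgn b ≠ 0 := by cases b <;> simp [sgn]

lemma sgn_solve {a b c d : Bool} {u v : ℝ} (hv : v ≠ 0) (h1 : sgn a * u + sgn b * v = 0)
    (h2 : sgn c * u + sgn d * v = 0) : b = Bool.xor (Bool.xor d c) a := by
  cases a <;> cases b <;> cases c <;> cases d <;>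
    simp only [sgn, ↓reduceIte, Bool.false_eq_true, one_mul, neg_mul] at h1 h2 <;>
    first
      | rfl
      | exact absurd (show v = 0 by linarith) hv

/-- A pair of equal or opposite columns gives a kernel vector with two nonzero coordinates. -/
lemma exists_of_pairEq {i j : Fin n} {b : Bool} {ω : Samp n} (hij : i ≠ j)
    (h : PairEq i j b ω) :
    ∃ x : Fin n → ℝ, x ≠ 0 ∧ signMat ω *ᵥ x = 0 ∧ #(univ.filter fun l => x l ≠ 0) ≤ 2 := by
  refine ⟨Pi.single i (-sgn (Bool.xor b true)) + Pi.single j 1, ?_, funext fun r => ?_, ?_⟩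
  · intro h0
    have := congrFun h0 j
    simp [Pi.single_eq_of_ne hij.symm] at this
  · rw [mulVec_add, Pi.add_apply, Pi.zero_apply]
    show (∑ l, signMat ω r l * (Pi.single i (-sgn (Bool.xor b true)) : Fin n → ℝ) l) +
      ∑ l, signMat ω r l * (Pi.single j (1 : ℝ) : Fin n → ℝ) l = 0
    simp only [Pi.single_apply, mul_ite, mul_zero, sum_ite_eq', mem_univ, ↓reduceIte, signMat,
      of_apply]
    rw [h r]
    cases b <;> cases ω s(r, i) <;> simp [sgn]
  · refine le_trans (card_le_card (t := {i, j}) fun l hl => ?_) card_le_two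
    simp only [mem_filter, mem_univ, true_and] at hl
    rw [mem_insert, mem_singleton]
    by_contra hn
    rw [not_or] at hn
    exact hl (by simp [Pi.single_eq_of_ne hn.1, Pi.single_eq_of_ne hn.2])

lemma det_eq_zero_of_structured {ε : ℝ} {ω : Samp n} (h : Structured ε ω) :
    (signMat ω).det = 0 := by
  obtain ⟨x, hx, h0, -⟩ := h
  exact exists_mulVec_eq_zero_iff.1 ⟨x, hx, h0⟩

/-- The three ways to have a structured kernel vector. -/
lemma structured_cases {ε : ℝ} {ω : Samp n} (h : Structured ε ω) :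
    (∃ z ∈ pairs n, PairEq z.1.1 z.1.2 z.2 ω) ∨
      (∃ q ∈ (univ : Finset (Finset (Fin n) × Finset (Fin n))).filter
          (fun q => 3 ≤ #q.1 ∧ #q.2 + 1 = #q.1 ∧ (#q.1 : ℝ) ≤ n - 2 * n / Real.log n),
        DetEvent q.1 q.2 ω) ∨
      ∃ z ∈ (Fintype.piFinset fun _ : Fin n =>
            Icc (-⌊(n : ℝ) ^ (1 / 2 - ε : ℝ)⌋) ⌊(n : ℝ) ^ (1 / 2 - ε : ℝ)⌋).filter
          (fun z : Fin n → ℤ => (n : ℝ) - 2 * n / Real.log n <
            #(univ.filter fun i => (z i : ℝ) ≠ 0)),
        ∀ i, RowZero (fun j => (z j : ℝ)) ω i := by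
  obtain ⟨x, hx, h0, hcase⟩ := h
  by_cases hs : (#(univ.filter fun i => x i ≠ 0) : ℝ) ≤ n - 2 * n / Real.log n
  · -- a kernel vector of least support
    obtain ⟨y, hy, hymin⟩ := (univ.filter fun T : Finset (Fin n) => ∃ y : Fin n → ℝ, y ≠ 0 ∧
        (∀ i, RowZero y ω i) ∧ (univ.filter fun i => y i ≠ 0) = T).exists_min_image card
      ⟨univ.filter fun i => x i ≠ 0, mem_filter.2 ⟨mem_univ _, x, hx, rowZero_of_mulVec h0, rfl⟩⟩
    obtain ⟨w, hw, hw0, rfl⟩ := (mem_filter.1 hy).2
    have hmin : ∀ v : Fin n → ℝ, v ≠ 0 → (∀ i, RowZero v ω i) →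
        #(univ.filter fun j => w j ≠ 0) ≤ #(univ.filter fun j => v j ≠ 0) :=
      fun v hv hv0 => hymin _ (mem_filter.2 ⟨mem_univ _, v, hv, hv0, rfl⟩)
    have hkle : (#(univ.filter fun j => w j ≠ 0) : ℝ) ≤ n - 2 * n / Real.log n :=
      le_trans (by exact_mod_cast hmin x hx (rowZero_of_mulVec h0)) hs
    obtain ⟨j0, hj0⟩ : ∃ j, w j ≠ 0 := Function.ne_iff.1 hw
    rcases Nat.lt_or_ge #(univ.filter fun j => w j ≠ 0) 3 with h3 | h3
    · left
      by_cases h1 : ∃ i, i ≠ j0 ∧ w i ≠ 0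
      · obtain ⟨i0, hi0, hi0w⟩ := h1
        -- exactly two coordinates
        have hS : (univ.filter fun j => w j ≠ 0) = {i0, j0} := by
          refine (eq_of_subset_of_card_le (fun a ha => ?_) ?_).symm
          · rcases mem_insert.1 ha with rfl | ha
            · simpa using hi0w
            · rw [mem_singleton.1 ha]; simpa using hj0
          · rw [card_pair hi0]; omega
        have key : ∀ r, sgn (ω s(r, i0)) * w i0 + sgn (ω s(r, j0)) * w j0 = 0 := fun r => by
          rw [← hw0 r, ← sum_subset (subset_univ (univ.filter fun j => w j ≠ 0)) (fun a _ ha => by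
            rw [not_not.1 (show ¬ w a ≠ 0 by simpa using ha), mul_zero]), hS, sum_pair hi0]
        set b := Bool.xor (ω s(j0, j0)) (ω s(j0, i0)) with hb
        have hall : ∀ r, ω s(r, j0) = Bool.xor b (ω s(r, i0)) := by
          intro r
          have k1 := key r
          have k2 := key j0
          rw [hb]
          exact sgn_solve hj0 k1 k2
        rcases lt_or_gt_of_ne hi0 with hlt | hlt
        · exact ⟨((i0, j0), b), by simp [pairs, hlt], hall⟩
        · refine ⟨((j0, i0), b), by simp [pairs, hlt], fun r => ?_⟩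
          rw [hall r, ← Bool.xor_assoc, Bool.xor_self, Bool.false_xor]
      · -- one coordinate is impossible
        simp only [not_exists, not_and, not_not] at h1
        have := hw0 j0
        rw [RowZero, sum_eq_single j0 (fun a _ ha => by rw [h1 a ha, mul_zero])
          (fun h => absurd (mem_univ _) h)] at this
        exact absurd this (mul_ne_zero (sgn_ne_zero _) hj0)
    · right; left
      obtain ⟨R, hR, hdet⟩ := exists_detEvent hw hw0 hmin
      exact ⟨(_, R), mem_filter.2 ⟨mem_univ _, h3, hR, hkle⟩, hdet⟩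
  · right; right
    obtain ⟨z, hz⟩ := hcase.resolve_left hs
    have hxz : (fun j => (z j : ℝ)) = x := funext fun j => (hz j).1.symm
    refine ⟨z, mem_filter.2 ⟨Fintype.mem_piFinset.2 fun i => ?_, ?_⟩, ?_⟩
    · have := abs_le.1 (hz i).2
      rw [mem_Icc, neg_le, Int.le_floor, Int.le_floor, Int.cast_neg]
      exact ⟨by linarith, this.2⟩
    · rw [not_le] at hs
      simpa [← (hz _).1] using hs
    · rw [hxz]
      exact rowZero_of_mulVec h0

lemma ne_of_mem_pairs {z : (Fin n × Fin n) × Bool} (hz : z ∈ pairs n) : z.1.1 ≠ z.1.2 :=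
  ne_of_lt (mem_filter.1 (mem_product.1 hz).1).2

lemma sum_prob_pairs : ∑ z ∈ pairs n, prob (PairEq z.1.1 z.1.2 z.2) =
    (n : ℝ) * (n - 1) / 2 ^ n := by
  rw [sum_congr rfl fun z hz => prob_pairEq z.1.1 z.1.2 z.2 (ne_of_mem_pairs hz), sum_const,
    nsmul_eq_mul, card_pairs]
  ring

/-- The union bound. -/
lemma prob_structured_le {ε : ℝ} (hε : 0 < ε) (hε' : ε ≤ 1 / 2) (h4 : 4 ≤ ε * Real.log n)
    (hL : 4 ≤ Real.log n)
    (hterm : ∀ k : ℕ, 3 ≤ k → (k : ℝ) ≤ n - 2 * n / Real.log n → 2 ^ n * suppTerm n k ≤ 1) :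
    prob (Structured ε (n := n)) ≤ ((n : ℝ) * (n - 1) + n + 2) / 2 ^ n := by
  have hn1 : (1 : ℝ) ≤ n := by
    rcases Nat.eq_zero_or_pos n with rfl | h
    · simp at hL
      norm_num at hL
    · exact_mod_cast h
  refine (prob_mono fun ω h => structured_cases h).trans ((prob_or _ _).trans ?_)
  rw [add_div, add_div, add_assoc]
  refine add_le_add ?_ ((prob_or _ _).trans (le_of_le_of_eq (add_le_add
    (b := ((n : ℝ) + 1) / 2 ^ n) (d := 1 / 2 ^ n) ?_ ?_) ?_))
  · refine (prob_union _ _).trans (le_of_eq ?_)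
    exact sum_prob_pairs
  · refine (prob_union _ _).trans ((sum_le_sum fun q hq => prob_detEvent_le q.1 q.2).trans ?_)
    rw [← sum_fiberwise_of_maps_to (t := range (n + 1)) (g := fun q => #q.1) fun q _ =>
      mem_range.2 (Nat.lt_succ_of_le ((card_le_univ _).trans (by simp)))]
    refine (sum_le_sum (g := fun _ => 1 / (2 : ℝ) ^ n) fun k hk => ?_).trans (le_of_eq ?_)
    · by_cases hk' : 3 ≤ k ∧ (k : ℝ) ≤ n - 2 * n / Real.log n
      · refine le_trans ?_ ((le_div_iff₀ (by positivity)).2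
          (le_of_eq_of_le (mul_comm _ _) (hterm k hk'.1 hk'.2)))
        refine le_trans (sum_le_card_nsmul _ _ (rowBound k (n - (k - 1))) fun q hq => ?_) ?_
        · simp only [mem_filter, mem_univ, true_and] at hq
          rw [hq.2, show #q.2 = k - 1 by omega]
        · rw [nsmul_eq_mul, suppTerm, ← Nat.cast_mul]
          refine mul_le_mul_of_nonneg_right ?_ (rowBound_nonneg _ _)
          refine Nat.cast_le.2 ((card_le_card (t := (univ : Finset (Fin n)).powersetCard k ×ˢ
            (univ : Finset (Fin n)).powersetCard (k - 1)) fun q hq => ?_).trans_eq ?_)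
          · simp only [mem_filter, mem_univ, true_and] at hq
            simp only [mem_product, mem_powersetCard, subset_univ, true_and]
            exact ⟨hq.2, by omega⟩
          · simp
      · refine le_of_eq_of_le (sum_eq_zero fun q hq => ?_) (by positivity)
        simp only [mem_filter, mem_univ, true_and] at hq
        exact absurd ⟨hq.2 ▸ hq.1.1, hq.2 ▸ hq.1.2.2⟩ hk'
    · rw [sum_const, card_range, nsmul_eq_mul]
      push_cast
      ring
  · -- integer vectors
    set H := (n : ℝ) ^ (1 / 2 - ε : ℝ) with hH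
    have hH1 : 1 ≤ H := Real.one_le_rpow hn1 (by linarith)
    refine (prob_union _ _).trans ?_
    refine (sum_le_card_nsmul _ _ ((1 / 2 ^ n : ℝ) / (3 * H) ^ n) fun z hz => ?_).trans ?_
    · obtain ⟨-, hbig⟩ := mem_filter.1 hz
      set S := univ.filter fun i => (z i : ℝ) ≠ 0 with hS
      refine (prob_mono fun ω hω => (⟨trivial, fun i _ => hω i⟩ :
          True ∧ ∀ i ∉ (∅ : Finset (Fin n)), RowZero _ ω i)).trans
        ((prob_rows_le S ∅ (fun _ => True) (fun _ j => (z j : ℝ))
          (fun _ _ _ => ⟨Iff.rfl, rfl⟩) fun _ _ j => by simp [hS]).trans ?_)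
      rw [card_empty, Nat.sub_zero, le_div_iff₀ (by positivity), le_div_iff₀ (by positivity)]
      refine le_of_eq_of_le ?_ (intTerm_le hε ((card_le_univ S).trans (by simp)) hbig.le h4 hL)
      rw [hH]
      ring
    · rw [nsmul_eq_mul]
      refine le_trans (mul_le_mul_of_nonneg_right (c := (3 * H) ^ n) ?_
          (show (0 : ℝ) ≤ 1 / 2 ^ n / (3 * H) ^ n by positivity))
        (le_of_eq (show (3 * H) ^ n * ((1 : ℝ) / 2 ^ n / (3 * H) ^ n) = 1 / 2 ^ n by field_simp))
      refine (Nat.cast_le.2 (card_filter_le _ _)).trans ?_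
      rw [Fintype.card_piFinset, prod_const, card_univ, Fintype.card_fin, Nat.cast_pow]
      refine pow_le_pow_left₀ (Nat.cast_nonneg _) ?_ n
      rw [Int.card_Icc]
      have hfl : (0 : ℤ) ≤ ⌊H⌋ := Int.floor_nonneg.2 (by linarith)
      have h2 : ((⌊H⌋ + 1 - -⌊H⌋).toNat : ℤ) = 2 * ⌊H⌋ + 1 := by omega
      have h3 := congrArg (Int.cast (R := ℝ)) h2
      push_cast at h3
      rw [h3]
      have := Int.floor_le H
      linarith
  · ring

lemma prob_structured_ge {ε : ℝ} (hL : 4 ≤ n) (h2 : (2 : ℝ) ≤ n - 2 * n / Real.log n) :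
    ((n : ℝ) * (n - 1)) / 2 ^ n - (n : ℝ) ^ 4 / 4 ^ (n - 4) ≤ prob (Structured ε (n := n)) := by
  refine le_trans (le_trans ?_ (prob_union_ge (pairs n) fun z => PairEq z.1.1 z.1.2 z.2))
    (prob_mono fun ω hω => ?_)
  · refine sub_le_sub (le_of_eq ?_) ?_
    · exact sum_prob_pairs.symm
    · refine (sum_le_card_nsmul _ _ (1 / 4 ^ (n - 4) : ℝ) fun q hq => ?_).trans ?_
      · rw [mem_offDiag] at hq
        exact prob_pairs_and hq.1 hq.2.1 hq.2.2
      · rw [nsmul_eq_mul, ← mul_div_assoc, mul_one]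
        refine div_le_div_of_nonneg_right ?_ (by positivity)
        rw [offDiag_card, Nat.cast_sub (Nat.le_mul_self _), Nat.cast_mul, card_pairs]
        have : (4 : ℝ) ≤ n := by exact_mod_cast hL
        calc (n : ℝ) * (n - 1) * (n * (n - 1)) - n * (n - 1)
            ≤ ((n : ℝ) * (n - 1)) ^ 2 := by nlinarith
          _ ≤ ((n : ℝ) * n) ^ 2 := pow_le_pow_left₀ (by nlinarith) (by nlinarith) 2
          _ = _ := by ring
  · obtain ⟨z, hz, hpair⟩ := hω
    obtain ⟨x, hx, hx0, hc⟩ := exists_of_pairEq (ne_of_mem_pairs hz)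
      hpair
    exact ⟨x, hx, hx0, Or.inl (le_trans (by exact_mod_cast hc) h2)⟩

lemma structured_anti {ε ε' : ℝ} (h : ε' ≤ ε) (hn : 1 ≤ n) {ω : Samp n}
    (hω : Structured ε ω) : Structured ε' ω := by
  obtain ⟨x, hx, hx0, h' | ⟨z, hz⟩⟩ := hω
  · exact ⟨x, hx, hx0, Or.inl h'⟩
  · exact ⟨x, hx, hx0, Or.inr ⟨z, fun i => ⟨(hz i).1, (hz i).2.trans
      (Real.rpow_le_rpow_of_exponent_le (by exact_mod_cast hn) (by linarith))⟩⟩⟩

/-- Structured singularity has probability asymptotic to `n² 2⁻ⁿ`. -/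
theorem tendsto_prob_structured {ε : ℝ} (hε : 0 < ε) :
    Tendsto (fun n : ℕ => prob (Structured ε (n := n)) / ((n : ℝ) ^ 2 / 2 ^ n)) atTop (𝓝 1) := by
  have hlogtop : Tendsto (fun n : ℕ => Real.log (n : ℝ)) atTop atTop :=
    Real.tendsto_log_atTop.comp tendsto_natCast_atTop_atTop
  have hdiv : ∀ c : ℝ, Tendsto (fun n : ℕ => c / (n : ℝ)) atTop (𝓝 0) :=
    tendsto_const_div_atTop_nhds_zero_nat
  have hsmall : Tendsto (fun n : ℕ => (n : ℝ) ^ 2 / 2 ^ n) atTop (𝓝 0) :=
    tendsto_pow_const_div_const_pow_of_one_lt 2 one_lt_two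
  refine tendsto_of_tendsto_of_tendsto_of_le_of_le'
    (g := fun n : ℕ => 1 - 1 / (n : ℝ) - 256 * ((n : ℝ) ^ 2 / 2 ^ n))
    (h := fun n : ℕ => 1 + 2 / (n : ℝ)) ?_ ?_ ?_ ?_
  · simpa using ((hdiv 1).const_sub 1).sub (hsmall.const_mul 256)
  · simpa using (hdiv 2).const_add 1
  · filter_upwards [eventually_ge_atTop 4, hlogtop.eventually_ge_atTop 4] with n hn4 hL
    have hn : (4 : ℝ) ≤ n := by exact_mod_cast hn4
    rw [le_div_iff₀ (by positivity)]
    refine le_trans (le_of_eq ?_) (prob_structured_ge (ε := ε) hn4 ?_)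
    · have e : (4 : ℝ) ^ n = 4 ^ (n - 4) * 256 := by
        rw [show (256 : ℝ) = 4 ^ 4 by norm_num, ← pow_add, Nat.sub_add_cancel hn4]
      have e2 : (2 : ℝ) ^ n * 2 ^ n = 4 ^ n := by rw [← mul_pow]; norm_num
      rw [show (n : ℝ) ^ 4 / 4 ^ (n - 4) = 256 * (n : ℝ) ^ 4 / 4 ^ n by
        rw [e]; field_simp, ← e2]
      field_simp
    · have : 2 * (n : ℝ) / Real.log n ≤ n / 2 := by
        rw [div_le_iff₀ (by linarith)]
        nlinarith
      linarith
  · filter_upwards [eventually_ge_atTop 4, hlogtop.eventually_ge_atTop 4,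
      hlogtop.eventually_ge_atTop (4 / min ε (1 / 2)), eventually_suppTerm_le] with n hn4 hL h4 hterm
    have hn : (4 : ℝ) ≤ n := by exact_mod_cast hn4
    have hm : 0 < min ε (1 / 2) := lt_min hε (by norm_num)
    rw [div_le_iff₀' hm] at h4
    rw [div_le_iff₀ (by positivity)]
    refine ((prob_mono fun ω h => structured_anti (min_le_left ε (1 / 2)) (by omega) h).trans
      (prob_structured_le hm (min_le_right _ _) h4 hL hterm)).trans ?_
    have e : (1 + 2 / (n : ℝ)) * ((n : ℝ) ^ 2 / 2 ^ n) = ((n : ℝ) ^ 2 + 2 * n) / 2 ^ n := by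
      field_simp
    rw [e]
    refine div_le_div_of_nonneg_right ?_ (by positivity)
    nlinarith

/-- Lower bound on the singularity probability. -/
theorem eventually_singular_ge {δ : ℝ} (hδ : 0 < δ) :
    ∀ᶠ n : ℕ in atTop,
      (1 - δ) * ((n : ℝ) ^ 2 / 2 ^ n) ≤ prob (fun ω : Samp n => (signMat ω).det = 0) := by
  filter_upwards [(tendsto_prob_structured one_pos).eventually
    (eventually_ge_nhds (show 1 - δ < 1 by linarith)), eventually_ge_atTop 1] with n hn hn1
  have : (1 : ℝ) ≤ n := by exact_mod_cast hn1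
  rw [le_div_iff₀ (by positivity)] at hn
  exact hn.trans (prob_mono fun ω h => det_eq_zero_of_structured h)

end Vale.Agent.P160
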