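import Vale.Agent.P160.Exposure

/-!
Two equal or opposite columns: exact probabilities and intersections.
-/

namespace Vale.Agent.P160

open Classical Finset Matrix

variable {n : ℕ}

/-- Column `j` is column `i` times the sign coded by `b`. -/
def PairEq (i j : Fin n) (b : Bool) (ω : Samp n) : Prop :=
  ∀ r, ω s(r, j) = Bool.xor b (ω s(r, i))

/-- The possible pairs. -/
def pairs (n : ℕ) : Finset ((Fin n × Fin n) × Bool) :=
  (univ.filter fun q : Fin n × Fin n => q.1 < q.2) ×ˢ (univ : Finset Bool)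

lemma card_pairs (n : ℕ) : (#(pairs n) : ℝ) = n * (n - 1) := by
  have h : 2 * #(univ.filter fun q : Fin n × Fin n => q.1 < q.2) = n * n - n := by
    have h1 : (univ : Finset (Fin n)).offDiag =
        (univ.filter fun q : Fin n × Fin n => q.1 < q.2) ∪
          (univ.filter fun q : Fin n × Fin n => q.2 < q.1) := by
      ext q
      simp [lt_or_lt_iff_ne]
    have h2 := congrArg card h1
    rw [card_union_of_disjoint (disjoint_filter.2 fun q _ h => h.asymm), offDiag_card,
      card_univ, Fintype.card_fin] at h2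
    have h3 : #(univ.filter fun q : Fin n × Fin n => q.2 < q.1) =
        #(univ.filter fun q : Fin n × Fin n => q.1 < q.2) :=
      card_equiv (Equiv.prodComm _ _) (by simp)
    omega
  have h' : #(pairs n) = n * n - n := by
    rw [pairs, card_product, card_univ, Fintype.card_bool, ← h, mul_comm]
  rw [h', Nat.cast_sub (Nat.le_mul_self n)]
  push_cast
  ring

lemma prob_pairEq (i j : Fin n) (b : Bool) (hij : i ≠ j) :
    prob (PairEq i j b) = 1 / 2 ^ n := by
  set F := univ.image fun r => s(r, j) with hF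
  have hinj : Function.Injective fun r : Fin n => s(r, j) := fun r r' h => by
    rcases Sym2.eq_iff.1 h with ⟨h, -⟩ | ⟨h, h'⟩
    · exact h
    · exact h.trans h'
  have hFc : #F = n := by rw [hF, card_image_of_injective _ hinj, card_univ, Fintype.card_fin]
  have hsrc : ∀ r, r ≠ j → s(r, i) ∉ F := fun r hr hm => by
    obtain ⟨r', -, h⟩ := mem_image.1 hm
    rcases Sym2.eq_iff.1 h with ⟨-, h2⟩ | ⟨-, h2⟩
    · exact hij h2.symm
    · exact hr h2.symm
  have hone : ∀ ω, #(univ.filter fun η : F → Bool => PairEq i j b (upd F ω η)) = 1 := by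
    intro ω
    have hFmem : ∀ r, s(r, j) ∈ F := fun r => mem_image_of_mem _ (mem_univ r)
    rw [card_eq_one]
    refine ⟨fun f => if f.1 = s(j, j) then ω s(i, i) else
      if h : ∃ r, s(r, j) = f.1 then Bool.xor b (ω s(h.choose, i)) else false, ?_⟩
    ext η
    simp only [mem_filter, mem_univ, true_and, mem_singleton]
    have hspec : ∀ r, (∃ r', s(r', j) = s(r, j)) ∧
        ∀ h : ∃ r', s(r', j) = s(r, j), h.choose = r := fun r =>
      ⟨⟨r, rfl⟩, fun h => hinj h.choose_spec⟩
    have hne : ∀ r, r ≠ j → s(r, j) ≠ s(j, j) := fun r hr h => hr (hinj h)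
    constructor
    · intro hη
      have hoff : ∀ r, r ≠ j → η ⟨s(r, j), hFmem r⟩ = Bool.xor b (ω s(r, i)) := fun r hr => by
        have := hη r
        rwa [upd_of_mem (hFmem r), upd_of_notMem (hsrc r hr)] at this
      funext f
      obtain ⟨f, hf⟩ := f
      obtain ⟨r, -, rfl⟩ := mem_image.1 hf
      by_cases hr : r = j
      · subst hr
        rw [if_pos rfl]
        have := hη r
        rw [upd_of_mem (hFmem r), Sym2.eq_swap (a := r) (b := i), upd_of_mem (hFmem i),
          hoff i hij] at this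
        rw [this, ← Bool.xor_assoc, Bool.xor_self, Bool.false_xor]
      · rw [if_neg (hne r hr), dif_pos (hspec r).1, (hspec r).2, hoff r hr]
    · rintro rfl r
      by_cases hr : r = j
      · subst hr
        rw [upd_of_mem (hFmem r), Sym2.eq_swap (a := r) (b := i), upd_of_mem (hFmem i),
          if_pos rfl, if_neg (hne i hij), dif_pos (hspec i).1, (hspec i).2, ← Bool.xor_assoc,
          Bool.xor_self, Bool.false_xor]
      · rw [upd_of_mem (hFmem r), upd_of_notMem (hsrc r hr), if_neg (hne r hr),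
          dif_pos (hspec r).1, (hspec r).2]
  have h := card_mul_two_pow F (fun _ => True) (PairEq i j b) fun _ _ => Iff.rfl
  simp only [true_and, filter_true, hone, sum_const, card_univ, smul_eq_mul, mul_one, hFc,
    Fintype.card_fun, Fintype.card_bool] at h
  rw [prob, div_eq_div_iff (by positivity) (by positivity), one_mul]
  have h' := congrArg (Nat.cast (R := ℝ)) h
  push_cast at h'
  convert h'

/-- Intersections of two different pair events, when the sign conflicts are excluded. -/
lemma prob_pairEq_and (i j i' j' : Fin n) (b b' : Bool) (hij : i ≠ j) (hij' : i' ≠ j')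
    (hi : j' ≠ i) (hj : j' ≠ j) :
    prob (fun ω => PairEq i j b ω ∧ PairEq i' j' b' ω) ≤ 1 / 4 ^ (n - 4) := by
  set U : Finset (Fin n) := univ \ {i, j, i', j'} with hU
  set F := U.image (fun r => s(r, j)) ∪ U.image fun r => s(r, j') with hF
  have hmem : ∀ r, r ∈ U ↔ r ≠ i ∧ r ≠ j ∧ r ≠ i' ∧ r ≠ j' := fun r => by simp [hU]
  have hUc : n - 4 ≤ #U := by
    rw [hU, card_sdiff_of_subset (subset_univ _), card_univ, Fintype.card_fin]
    have : #({i, j, i', j'} : Finset (Fin n)) ≤ 4 := card_le_four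
    omega
  have hFc : #F = 2 * #U := by
    rw [hF, card_union_of_disjoint, card_image_of_injOn, card_image_of_injOn, two_mul]
    · intro r hr r' _ h
      rcases Sym2.eq_iff.1 h with ⟨h, -⟩ | ⟨h, -⟩
      · exact h
      · exact absurd h ((hmem r).1 hr).2.2.2
    · intro r hr r' _ h
      rcases Sym2.eq_iff.1 h with ⟨h, -⟩ | ⟨h, -⟩
      · exact h
      · exact absurd h ((hmem r).1 hr).2.1
    · rw [disjoint_left]
      intro f h1 h2
      obtain ⟨r, hr, rfl⟩ := mem_image.1 h1
      obtain ⟨r', hr', h⟩ := mem_image.1 h2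
      rcases Sym2.eq_iff.1 h with ⟨-, h⟩ | ⟨h, -⟩
      · exact hj h
      · exact ((hmem r').1 hr').2.1 h
  have hsrc : ∀ r ∈ U, s(r, i) ∉ F := fun r hr hm => by
    rcases mem_union.1 hm with hm | hm <;> obtain ⟨r', hr', h⟩ := mem_image.1 hm <;>
      rcases Sym2.eq_iff.1 h with ⟨-, h⟩ | ⟨-, h⟩
    · exact hij h.symm
    · exact ((hmem r).1 hr).2.1 h.symm
    · exact hi h
    · exact ((hmem r).1 hr).2.2.2 h.symm
  have hb : ∀ ω, #(univ.filter fun η : F → Bool =>
      PairEq i j b (upd F ω η) ∧ PairEq i' j' b' (upd F ω η)) ≤ 1 := by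
    intro ω
    refine card_le_one.2 fun η hη η' hη' => ?_
    simp only [mem_filter, mem_univ, true_and] at hη hη'
    have h1 : ∀ r ∈ U, upd F ω η s(r, j) = upd F ω η' s(r, j) := fun r hr => by
      rw [hη.1 r, hη'.1 r, upd_of_notMem (hsrc r hr), upd_of_notMem (hsrc r hr)]
    have h2 : ∀ r ∈ U, upd F ω η s(r, j') = upd F ω η' s(r, j') := fun r hr => by
      rw [hη.2 r, hη'.2 r]
      congr 1
      by_cases hm : s(r, i') ∈ F
      · rcases mem_union.1 hm with hm' | hm' <;> obtain ⟨r', hr', h⟩ := mem_image.1 hm' <;>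
          rcases Sym2.eq_iff.1 h with ⟨-, h⟩ | ⟨-, h⟩
        · rw [← h]; exact h1 r hr
        · exact absurd h.symm ((hmem r).1 hr).2.1
        · exact absurd h.symm hij'
        · exact absurd h.symm ((hmem r).1 hr).2.2.2
      · rw [upd_of_notMem hm, upd_of_notMem hm]
    funext f
    obtain ⟨f, hf⟩ := f
    rw [← upd_of_mem (ω := ω) (η := η) hf, ← upd_of_mem (ω := ω) (η := η') hf]
    rcases mem_union.1 hf with hf' | hf' <;> obtain ⟨r, hr, rfl⟩ := mem_image.1 hf'
    · exact h1 r hr
    · exact h2 r hr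
  have h := prob_and_le F (fun _ => True)
    (fun ω => PairEq i j b ω ∧ PairEq i' j' b' ω) (1 / 2 ^ #F) (fun _ _ => Iff.rfl)
    fun ω _ => by
      rw [div_mul_cancel₀ _ (by positivity)]
      norm_cast
      convert hb ω
  refine (prob_mono fun ω h => ⟨trivial, h⟩).trans (h.trans ?_)
  refine (mul_le_of_le_one_right (by positivity) (prob_le_one _)).trans ?_
  refine one_div_le_one_div_of_le (by positivity) ?_
  rw [hFc, pow_mul]
  norm_num
  exact pow_le_pow_right₀ (by norm_num) hUc

/-- Different pairs meet with small probability. -/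
lemma prob_pairs_and {z z' : (Fin n × Fin n) × Bool} (hz : z ∈ pairs n)
    (hz' : z' ∈ pairs n) (hne : z ≠ z') :
    prob (fun ω => PairEq z.1.1 z.1.2 z.2 ω ∧ PairEq z'.1.1 z'.1.2 z'.2 ω) ≤
      1 / 4 ^ (n - 4) := by
  obtain ⟨⟨i, j⟩, b⟩ := z
  obtain ⟨⟨i', j'⟩, b'⟩ := z'
  simp only [pairs, mem_product, mem_filter, mem_univ, true_and, and_true] at hz hz'
  by_cases h : i = i' ∧ j = j'
  · obtain ⟨rfl, rfl⟩ := h
    have hb : b ≠ b' := fun h => hne (by rw [h])
    have h0 : ∀ ω, ¬ (PairEq i j b ω ∧ PairEq i j b' ω) := fun ω h => by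
      have h1 := h.1 i
      rw [h.2 i] at h1
      revert h1
      cases b <;> cases b' <;> simp_all
    refine le_trans (le_of_eq ?_) (by positivity)
    simp [prob, h0]
  · by_cases hj' : j' ≠ i ∧ j' ≠ j
    · exact prob_pairEq_and i j i' j' b b' hz.ne hz'.ne hj'.1 hj'.2
    · have hi' : i' ≠ i ∧ i' ≠ j := by
        rcases not_and_or.1 hj' with h2 | h2 <;> rw [not_not] at h2 <;> subst h2
        · exact ⟨hz'.ne, (hz'.trans hz).ne⟩
        · exact ⟨fun e => h ⟨e.symm, rfl⟩, hz'.ne⟩
      refine (prob_mono fun ω hω => ?_).trans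
        (prob_pairEq_and i j j' i' b b' hz.ne hz'.ne' hi'.1 hi'.2)
      refine ⟨hω.1, fun r => ?_⟩
      rw [hω.2 r, ← Bool.xor_assoc, Bool.xor_self, Bool.false_xor]

end Vale.Agent.P160
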