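import Vale.Agent.P160.Defs

/-!
Basic facts on the uniform measure, exposure of one block of coordinates, and the
Erdős–Littlewood–Offord bound.
-/

namespace Vale.Agent.P160

open Classical Finset Matrix

variable {n : ℕ}

lemma prob_nonneg (P : Samp n → Prop) : 0 ≤ prob P := by unfold prob; positivity

lemma prob_mono {P Q : Samp n → Prop} (h : ∀ ω, P ω → Q ω) : prob P ≤ prob Q := by
  refine div_le_div_of_nonneg_right ?_ (by positivity)
  exact_mod_cast card_le_card fun ω hω => by
    rw [mem_filter] at hω ⊢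
    exact ⟨hω.1, h ω hω.2⟩

lemma prob_le_one (P : Samp n → Prop) : prob P ≤ 1 := by
  rw [prob, div_le_one (by positivity)]
  have h : #(univ.filter P) ≤ Fintype.card (Samp n) := card_filter_le _ _
  rw [Fintype.card_fun, Fintype.card_bool] at h
  exact_mod_cast h

lemma prob_or (P Q : Samp n → Prop) : prob (fun ω => P ω ∨ Q ω) ≤ prob P + prob Q := by
  rw [prob, prob, prob, ← add_div]
  refine div_le_div_of_nonneg_right ?_ (by positivity)
  exact_mod_cast (card_le_card fun ω hω => by
    simp only [mem_union, mem_filter, mem_univ, true_and] at hω ⊢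
    exact hω).trans (card_union_le (univ.filter P) (univ.filter Q))

lemma prob_union {ι : Type*} (s : Finset ι) (P : ι → Samp n → Prop) :
    prob (fun ω => ∃ i ∈ s, P i ω) ≤ ∑ i ∈ s, prob (P i) := by
  induction s using Finset.induction with
  | empty => simp [prob]
  | insert a s ha ih =>
    rw [sum_insert ha]
    refine (prob_mono fun ω hω => ?_).trans ((prob_or _ _).trans (add_le_add le_rfl ih))
    obtain ⟨i, hi, h⟩ := hω
    rcases mem_insert.1 hi with rfl | hi
    · exact Or.inl h
    · exact Or.inr ⟨i, hi, h⟩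

/-- Second order inclusion and exclusion, lower bound. -/
lemma prob_union_ge {ι : Type*} (s : Finset ι) (P : ι → Samp n → Prop) :
    (∑ i ∈ s, prob (P i)) - ∑ q ∈ s.offDiag, prob (fun ω => P q.1 ω ∧ P q.2 ω) ≤
      prob (fun ω => ∃ i ∈ s, P i ω) := by
  simp only [prob, ← sum_div, ← sub_div]
  refine div_le_div_of_nonneg_right ?_ (by positivity)
  simp only [natCast_card_filter]
  rw [sum_comm (s := s), sum_comm (s := s.offDiag), ← sum_sub_distrib]
  refine sum_le_sum fun ω _ => ?_
  simp only [sum_boole]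
  have h : s.offDiag.filter (fun q => P q.1 ω ∧ P q.2 ω) = (s.filter fun i => P i ω).offDiag := by
    ext q
    simp only [mem_filter, mem_offDiag]
    tauto
  refine le_of_eq_of_le (b := (#(s.filter fun i => P i ω) : ℝ) -
    ((s.filter fun i => P i ω).offDiag.card : ℝ)) ?_ ?_
  · rw [← h]
    congr 1
    convert (natCast_card_filter (R := ℝ) _ _).symm
  rw [offDiag_card]
  by_cases hex : ∃ i ∈ s, P i ω
  · rw [if_pos hex]
    generalize #(s.filter fun i => P i ω) = m
    rw [Nat.cast_sub (Nat.le_mul_self m)]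
    push_cast
    nlinarith [sq_nonneg ((m : ℝ) - 1)]
  · rw [if_neg hex]
    have : s.filter (fun i => P i ω) = ∅ := filter_eq_empty_iff.2 fun i hi hP => hex ⟨i, hi, hP⟩
    simp [this]

/-- Replace the bits in `F`. -/
def upd (F : Finset (Sym2 (Fin n))) (ω : Samp n) (η : F → Bool) : Samp n :=
  fun e => if h : e ∈ F then η ⟨e, h⟩ else ω e

lemma upd_of_notMem {F : Finset (Sym2 (Fin n))} {ω : Samp n} {η : F → Bool} {e : Sym2 (Fin n)}
    (h : e ∉ F) : upd F ω η e = ω e := dif_neg h

lemma upd_of_mem {F : Finset (Sym2 (Fin n))} {ω : Samp n} {η : F → Bool} {e : Sym2 (Fin n)}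
    (h : e ∈ F) : upd F ω η e = η ⟨e, h⟩ := dif_pos h

lemma upd_restrict (F : Finset (Sym2 (Fin n))) (ω : Samp n) (η : F → Bool) :
    upd F (upd F ω η) (fun e => ω e) = ω := funext fun e => by
  by_cases h : e ∈ F
  · rw [upd_of_mem h]
  · rw [upd_of_notMem h, upd_of_notMem h]

/-- Summing the fibres of the bits in `F`. -/
lemma card_mul_two_pow (F : Finset (Sym2 (Fin n))) (P Q : Samp n → Prop)
    (hP : ∀ ω η, P (upd F ω η) ↔ P ω) :
    #(univ.filter fun ω => P ω ∧ Q ω) * 2 ^ #F =
      ∑ ω ∈ univ.filter P, #(univ.filter fun η : F → Bool => Q (upd F ω η)) := by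
  rw [← card_sigma, show 2 ^ #F = #(univ : Finset (F → Bool)) by simp, ← card_product]
  refine card_bij' (fun a _ => ⟨upd F a.1 a.2, fun e => a.1 e⟩)
    (fun a _ => (upd F a.1 a.2, fun e => a.1 e)) ?_ ?_ ?_ ?_
  · intro a ha
    simp only [mem_product, mem_filter, mem_univ, true_and, and_true] at ha
    simp only [mem_sigma, mem_filter, mem_univ, true_and]
    exact ⟨(hP _ _).2 ha.1, by rw [upd_restrict]; exact ha.2⟩
  · intro a ha
    simp only [mem_sigma, mem_filter, mem_univ, true_and] at ha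
    simp only [mem_product, mem_filter, mem_univ, true_and, and_true]
    exact ⟨(hP _ _).2 ha.1, ha.2⟩
  · intro a _
    refine Prod.ext (upd_restrict F a.1 a.2) (funext fun e => ?_)
    exact upd_of_mem e.2
  · intro a _
    refine Sigma.ext (upd_restrict F a.1 a.2) (heq_of_eq (funext fun e => ?_))
    exact upd_of_mem e.2

/-- If every fibre has at most a fraction `r`, so has the event. -/
lemma prob_and_le (F : Finset (Sym2 (Fin n))) (P Q : Samp n → Prop) (r : ℝ)
    (hP : ∀ ω η, P (upd F ω η) ↔ P ω)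
    (hQ : ∀ ω, P ω → (#(univ.filter fun η : F → Bool => Q (upd F ω η)) : ℝ) ≤ r * 2 ^ #F) :
    prob (fun ω => P ω ∧ Q ω) ≤ r * prob P := by
  rw [prob, prob, mul_div_assoc']
  refine div_le_div_of_nonneg_right (le_of_mul_le_mul_right ?_
    (pow_pos two_pos #F : (0 : ℝ) < 2 ^ #F)) (by positivity)
  refine (le_of_eq (b := ∑ ω ∈ univ.filter P,
    (#(univ.filter fun η : F → Bool => Q (upd F ω η)) : ℝ)) ?_).trans
    ((sum_le_sum fun ω hω => hQ ω (mem_filter.1 hω).2).trans (le_of_eq ?_))
  · norm_cast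
    convert card_mul_two_pow F P Q hP
  · rw [sum_const, nsmul_eq_mul]
    ring

/-- The maximal point probability of a sum of `k` signs. -/
noncomputable def pLO (k : ℕ) : ℝ := (k.choose (k / 2) : ℝ) / 2 ^ k

lemma pLO_nonneg (k : ℕ) : 0 ≤ pLO k := by unfold pLO; positivity

lemma pLO_succ_le (k : ℕ) : pLO (k + 1) ≤ pLO k := by
  have h : (k + 1).choose ((k + 1) / 2) ≤ 2 * k.choose (k / 2) := by
    rcases (k + 1) / 2 with _ | j
    · rw [Nat.choose_zero_right]
      have := Nat.choose_pos (Nat.div_le_self k 2)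
      omega
    · rw [Nat.choose_succ_succ, two_mul]
      exact add_le_add (Nat.choose_le_middle _ _) (Nat.choose_le_middle _ _)
  rw [pLO, pLO, div_le_div_iff₀ (by positivity) (by positivity), pow_succ]
  have h' : ((k + 1).choose ((k + 1) / 2) : ℝ) ≤ 2 * k.choose (k / 2) := by exact_mod_cast h
  calc ((k + 1).choose ((k + 1) / 2) : ℝ) * 2 ^ k ≤ 2 * k.choose (k / 2) * 2 ^ k :=
        mul_le_mul_of_nonneg_right h' (by positivity)
    _ = _ := by ring

lemma pLO_antitone : Antitone pLO := antitone_nat_of_succ_le pLO_succ_le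

lemma pLO_le_one (k : ℕ) : pLO k ≤ 1 := (pLO_antitone (Nat.zero_le k)).trans (by simp [pLO])

lemma pLO_three : pLO 3 = 3 / 8 := by norm_num [pLO, Nat.choose]

lemma pLO_even_sq (m : ℕ) : pLO (2 * m) ^ 2 * (2 * m + 1) ≤ 1 := by
  induction m with
  | zero => simp [pLO]
  | succ m ih =>
    have h := congrArg (Nat.cast (R := ℝ)) (Nat.succ_mul_centralBinom_succ m)
    push_cast at h
    have e : pLO (2 * (m + 1)) * (2 * ((m : ℝ) + 1)) = pLO (2 * m) * (2 * m + 1) := by
      rw [pLO, pLO, show 2 * (m + 1) / 2 = m + 1 by omega, show 2 * m / 2 = m by omega,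
        show 2 * (m + 1) = 2 * m + 2 by omega, pow_add]
      simp only [Nat.centralBinom, show 2 * (m + 1) = 2 * m + 2 by omega] at h
      field_simp
      linarith
    push_cast
    have e2 : pLO (2 * (m + 1)) ^ 2 * (2 * ((m : ℝ) + 1)) ^ 2 =
        pLO (2 * m) ^ 2 * (2 * m + 1) ^ 2 := by rw [← mul_pow, e, mul_pow]
    have h4 := mul_le_mul_of_nonneg_right ih
      (show (0 : ℝ) ≤ (2 * m + 1) * (2 * (m + 1) + 1) by positivity)
    have : pLO (2 * (m + 1)) ^ 2 * (2 * ((m : ℝ) + 1) + 1) * (2 * ((m : ℝ) + 1)) ^ 2 ≤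
        1 * (2 * ((m : ℝ) + 1)) ^ 2 := by
      nlinarith
    exact le_of_mul_le_mul_right this (by positivity)

lemma pLO_sq (k : ℕ) : pLO k ^ 2 * (k + 1) ≤ 1 := by
  rcases Nat.even_or_odd' k with ⟨m, rfl | rfl⟩
  · push_cast
    exact pLO_even_sq m
  · have h := pLO_even_sq (m + 1)
    have e : pLO (2 * (m + 1)) = pLO (2 * m + 1) := by
      rw [pLO, pLO, show 2 * (m + 1) / 2 = m + 1 by omega, show (2 * m + 1) / 2 = m by omega,
        show 2 * (m + 1) = 2 * m + 1 + 1 by omega, Nat.choose_succ_succ, Nat.choose_symm_half,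
        pow_succ]
      push_cast
      field_simp
      ring
    rw [e] at h
    push_cast at h ⊢
    nlinarith [sq_nonneg (pLO (2 * m + 1))]

lemma pLO_le_rsqrt (k : ℕ) : pLO k ≤ 1 / Real.sqrt (k + 1) := by
  rw [le_div_iff₀ (by positivity)]
  refine abs_le_of_sq_le_sq' ?_ zero_le_one |>.2
  rw [mul_pow, Real.sq_sqrt (by positivity), one_pow]
  exact pLO_sq k

/-- Erdős' form of the Littlewood–Offord lemma. -/
lemma card_sum_sgn_le {ι : Type*} [Fintype ι] (x : ι → ℝ) (hx : ∀ i, x i ≠ 0) (c : ℝ) :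
    #(univ.filter fun e : ι → Bool => ∑ i, sgn (e i) * x i = c) ≤
      (Fintype.card ι).choose (Fintype.card ι / 2) := by
  set g : (ι → Bool) → Finset ι := fun e => univ.filter fun i => e i = decide (0 < x i) with hg
  have hterm : ∀ e i, sgn (e i) * x i = if i ∈ g e then |x i| else -|x i| := fun e i => by
    rcases lt_or_gt_of_ne (hx i) with h | h
    · cases he : e i <;> simp [hg, sgn, he, not_lt.2 h.le, abs_of_neg h]
    · cases he : e i <;> simp [hg, sgn, he, h, abs_of_pos h]
  have hsum : ∀ e, ∑ i, sgn (e i) * x i = 2 * (∑ i ∈ g e, |x i|) - ∑ i, |x i| := fun e => by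
    rw [sum_congr rfl fun i _ => hterm e i, ← sum_filter_add_sum_filter_not univ (· ∈ g e),
      ← sum_filter_add_sum_filter_not univ (· ∈ g e) fun i => |x i|]
    rw [sum_congr rfl fun i hi => if_pos (mem_filter.1 hi).2,
      sum_congr (s₂ := univ.filter fun i => i ∉ g e) rfl fun i hi => if_neg (mem_filter.1 hi).2,
      sum_neg_distrib, filter_mem_eq_inter, univ_inter]
    ring
  have hinj : Function.Injective g := fun e e' h => funext fun i => by
    have := Finset.ext_iff.1 h i
    simp only [hg, mem_filter, mem_univ, true_and] at this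
    revert this
    cases e i <;> cases e' i <;> cases decide (0 < x i) <;> simp
  rw [← card_image_of_injective _ hinj]
  refine IsAntichain.sperner fun s hs t ht hne hst => ?_
  simp only [coe_image, Set.mem_image, mem_coe, mem_filter, mem_univ, true_and] at hs ht
  obtain ⟨e, he, rfl⟩ := hs
  obtain ⟨e', he', rfl⟩ := ht
  rw [hsum] at he he'
  obtain ⟨i, hi, hi'⟩ := exists_of_ssubset (hst.ssubset_of_ne hne)
  have := sum_lt_sum_of_subset (f := fun i => |x i|) hst hi hi' (abs_pos.2 (hx i))
    fun _ _ _ => abs_nonneg _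
  linarith

end Vale.Agent.P160
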